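import Mathlib

/-!
P226, pool piece GEN-L2 (backup copy): orthonormal coordinates on the hyperplane orthogonal to a
nonzero vector `q` of `R^(d+1)`, packaged as a co-isometry `L : R^(d+1) → R^d` that pushes the
standard Gaussian measure to the standard Gaussian measure.
-/

open MeasureTheory ProbabilityTheory

namespace Vale.Agent.Lib.P226.H85

theorem exists_hyperplane_coisometry (d : ℕ) (q : EuclideanSpace ℝ (Fin (d + 1))) (hq : q ≠ 0) :
    ∃ L : EuclideanSpace ℝ (Fin (d + 1)) →L[ℝ] EuclideanSpace ℝ (Fin d),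
      (stdGaussian (EuclideanSpace ℝ (Fin (d + 1)))).map L
        = stdGaussian (EuclideanSpace ℝ (Fin d)) ∧
      (∀ y, ‖ContinuousLinearMap.adjoint L y‖ = ‖y‖) ∧
      (∀ x, ContinuousLinearMap.adjoint L (L x) = x - (inner ℝ x q / ‖q‖ ^ 2) • q) ∧
      (∀ z, ‖L z‖ ^ 2 = ‖z‖ ^ 2 - inner ℝ z q ^ 2 / ‖q‖ ^ 2) := by
  classical
  have hfact : Fact (Module.finrank ℝ (EuclideanSpace ℝ (Fin (d + 1))) = d + 1) :=
    ⟨finrank_euclideanSpace_fin⟩
  have hfin : Module.finrank ℝ ((ℝ ∙ q)ᗮ : Submodule ℝ (EuclideanSpace ℝ (Fin (d + 1)))) = d :=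
    Submodule.finrank_orthogonal_span_singleton hq
  -- an orthonormal basis of the hyperplane, indexed by `Fin d`
  obtain ⟨b⟩ : Nonempty (OrthonormalBasis (Fin d) ℝ
      ((ℝ ∙ q)ᗮ : Submodule ℝ (EuclideanSpace ℝ (Fin (d + 1))))) :=
    ⟨(stdOrthonormalBasis ℝ _).reindex (finCongr hfin)⟩
  -- the isometric embedding of `R^d` onto the hyperplane
  obtain ⟨J, hJ⟩ : ∃ J : EuclideanSpace ℝ (Fin d) →ₗᵢ[ℝ] EuclideanSpace ℝ (Fin (d + 1)),
      ∀ y, J y = ((b.repr.symm y : ((ℝ ∙ q)ᗮ : Submodule ℝ (EuclideanSpace ℝ (Fin (d + 1)))))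
        : EuclideanSpace ℝ (Fin (d + 1))) :=
    ⟨(Submodule.subtypeₗᵢ _).comp b.repr.symm.toLinearIsometry, fun y => rfl⟩
  have hqn : ‖q‖ ^ 2 ≠ 0 := pow_ne_zero 2 (norm_ne_zero_iff.mpr hq)
  -- facts about `J`
  have hJq : ∀ y, inner ℝ q (J y) = 0 := by
    intro y
    rw [hJ y]
    exact Submodule.mem_orthogonal_singleton_iff_inner_right.mp (b.repr.symm y).2
  have hJsurj : ∀ u : EuclideanSpace ℝ (Fin (d + 1)), inner ℝ q u = 0 → ∃ y, J y = u := by
    intro u hu
    have hmem : u ∈ ((ℝ ∙ q)ᗮ : Submodule ℝ (EuclideanSpace ℝ (Fin (d + 1)))) :=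
      Submodule.mem_orthogonal_singleton_iff_inner_right.mpr hu
    refine ⟨b.repr ⟨u, hmem⟩, ?_⟩
    rw [hJ, LinearIsometryEquiv.symm_apply_apply]
  -- the co-isometry
  refine ⟨ContinuousLinearMap.adjoint J.toContinuousLinearMap, ?_⟩
  have hadj : ContinuousLinearMap.adjoint (ContinuousLinearMap.adjoint J.toContinuousLinearMap)
      = J.toContinuousLinearMap := ContinuousLinearMap.adjoint_adjoint _
  have hLJ : ∀ y, ContinuousLinearMap.adjoint J.toContinuousLinearMap (J y) = y := by
    intro y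
    refine ext_inner_right ℝ (fun w => ?_)
    rw [ContinuousLinearMap.adjoint_inner_left]
    exact J.inner_map_map y w
  have hLq : ContinuousLinearMap.adjoint J.toContinuousLinearMap q = 0 := by
    refine ext_inner_right ℝ (fun w => ?_)
    rw [ContinuousLinearMap.adjoint_inner_left, inner_zero_left]
    exact hJq w
  have key : ∀ x, J (ContinuousLinearMap.adjoint J.toContinuousLinearMap x)
      = x - (inner ℝ x q / ‖q‖ ^ 2) • q := by
    intro x
    have hu : inner ℝ q (x - (inner ℝ x q / ‖q‖ ^ 2) • q) = 0 := by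
      rw [inner_sub_right, real_inner_smul_right, real_inner_self_eq_norm_sq, real_inner_comm]
      field_simp
      ring
    obtain ⟨y, hy⟩ := hJsurj _ hu
    have hx : x = J y + (inner ℝ x q / ‖q‖ ^ 2) • q := by
      rw [hy]
      abel
    have hLx : ContinuousLinearMap.adjoint J.toContinuousLinearMap x = y := by
      conv_lhs => rw [hx]
      rw [map_add, map_smul, hLq, smul_zero, add_zero, hLJ]
    rw [hLx, hy]
  have hnormL : ∀ t, ‖ContinuousLinearMap.adjoint
      (ContinuousLinearMap.adjoint J.toContinuousLinearMap) t‖ = ‖t‖ := by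
    intro t
    rw [hadj]
    exact J.norm_map t
  refine ⟨?_, hnormL, ?_, ?_⟩
  · apply Measure.ext_of_charFun
    ext t
    rw [charFun_apply, integral_map (ContinuousLinearMap.continuous _).measurable.aemeasurable
      (Measurable.aestronglyMeasurable (by fun_prop))]
    have hinner : ∀ x : EuclideanSpace ℝ (Fin (d + 1)),
        inner ℝ (ContinuousLinearMap.adjoint J.toContinuousLinearMap x) t
          = inner ℝ x (ContinuousLinearMap.adjoint
              (ContinuousLinearMap.adjoint J.toContinuousLinearMap) t) := fun x =>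
      (ContinuousLinearMap.adjoint_inner_right _ x t).symm
    simp_rw [hinner]
    rw [← charFun_apply, charFun_stdGaussian, charFun_stdGaussian, hnormL t]
  · intro x
    rw [hadj]
    exact key x
  · intro z
    have h1 : ‖ContinuousLinearMap.adjoint J.toContinuousLinearMap z‖
        = ‖z - (inner ℝ z q / ‖q‖ ^ 2) • q‖ := by
      rw [← key z]
      exact (J.norm_map _).symm
    rw [h1, norm_sub_sq_real, real_inner_smul_right, norm_smul, mul_pow, Real.norm_eq_abs,
      sq_abs]
    field_simp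
    ring

end Vale.Agent.Lib.P226.H85
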