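import Mathlib
import Vale.Agent.Lib.P226.helper77.Chi

/-!
P226: the mean norm of the standard Gaussian vector of `R^(n+1)` in closed form,
`E|g| = sqrt 2 * Gamma ((n+2)/2) / Gamma ((n+1)/2)`, for every `n`, and the value in dimension five.
Built on the radial quotient formula of `helper77/Chi.lean`.
-/

namespace Vale.Agent.Lib.P226.H85

open MeasureTheory ProbabilityTheory Real Set

theorem radial_gamma (q : ℝ) (hq : -1 < q) :
    ∫ y in Ioi (0 : ℝ), y ^ q * rexp (-(1 / 2 : ℝ) * y ^ (2 : ℝ))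
      = (1 / 2 : ℝ) ^ (-(q + 1) / 2) * (1 / 2) * Real.Gamma ((q + 1) / 2) :=
  integral_rpow_mul_exp_neg_mul_rpow (p := 2) (q := q) (b := 1 / 2) (by norm_num) hq
    (by norm_num)

theorem half_rpow_ratio (x : ℝ) :
    (1 / 2 : ℝ) ^ (-(x + 1 + 1) / 2) = Real.sqrt 2 * (1 / 2 : ℝ) ^ (-(x + 1) / 2) := by
  have h : -(x + 1 + 1) / 2 = -(1 / 2 : ℝ) + -(x + 1) / 2 := by ring
  have hs : (1 / 2 : ℝ) ^ (-(1 / 2 : ℝ)) = Real.sqrt 2 := by
    rw [show (1 / 2 : ℝ) = 2⁻¹ by norm_num, Real.inv_rpow (by norm_num),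
      ← Real.rpow_neg (by norm_num), neg_neg, Real.sqrt_eq_rpow, one_div]
  rw [h, Real.rpow_add (by norm_num), hs]

/-- The mean norm of the standard Gaussian vector of `R^(n+1)`. -/
theorem integral_norm_stdGaussian_gamma (n : ℕ) :
    ∫ y, ‖y‖ ∂(stdGaussian (EuclideanSpace ℝ (Fin (n + 1))))
      = Real.sqrt 2 * Real.Gamma (((n : ℝ) + 2) / 2) / Real.Gamma (((n : ℝ) + 1) / 2) := by
  rw [H77.integral_norm_stdGaussian_eq]
  have hdim : Module.finrank ℝ (EuclideanSpace ℝ (Fin (n + 1))) - 1 = n := by simp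
  rw [hdim]
  have hN := H77.radial_conv n 1
  have hD := H77.radial_conv n 0
  simp only [pow_one, pow_zero, mul_one] at hN hD
  have hn0 : (0 : ℝ) ≤ (n : ℝ) := Nat.cast_nonneg n
  rw [hN, hD, radial_gamma _ (by push_cast; linarith), radial_gamma _ (by push_cast; linarith)]
  push_cast
  have hG : 0 < Real.Gamma (((n : ℝ) + 1) / 2) := Real.Gamma_pos_of_pos (by positivity)
  have hp : 0 < (1 / 2 : ℝ) ^ (-((n : ℝ) + 1) / 2) := Real.rpow_pos_of_pos (by norm_num) _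
  rw [add_zero, half_rpow_ratio, show (n : ℝ) + 1 + 1 = (n : ℝ) + 2 by ring]
  field_simp

/-- The same formula indexed by the dimension `d ≥ 1`. -/
theorem integral_norm_stdGaussian_gamma' (d : ℕ) (hd : 0 < d) :
    ∫ y, ‖y‖ ∂(stdGaussian (EuclideanSpace ℝ (Fin d)))
      = Real.sqrt 2 * Real.Gamma (((d : ℝ) + 1) / 2) / Real.Gamma ((d : ℝ) / 2) := by
  obtain ⟨n, rfl⟩ : ∃ n, d = n + 1 := ⟨d - 1, by omega⟩
  have e1 : (((n + 1 : ℕ) : ℝ) + 1) / 2 = ((n : ℝ) + 2) / 2 := by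
    push_cast
    ring
  have e2 : ((n + 1 : ℕ) : ℝ) / 2 = ((n : ℝ) + 1) / 2 := by
    push_cast
    ring
  rw [integral_norm_stdGaussian_gamma, e1, e2]

/-- The constant `(3/d) (E|g_d| / E|g_3|)^2` in closed form. -/
theorem proj_const_eq (d : ℕ) (hd : 0 < d) :
    3 / (d : ℝ) * ((∫ y, ‖y‖ ∂(stdGaussian (EuclideanSpace ℝ (Fin d))))
        / (∫ y, ‖y‖ ∂(stdGaussian (EuclideanSpace ℝ (Fin 3))))) ^ 2
      = 3 * π / (4 * (d : ℝ))
        * (Real.Gamma (((d : ℝ) + 1) / 2) / Real.Gamma ((d : ℝ) / 2)) ^ 2 := by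
  rw [integral_norm_stdGaussian_gamma' d hd, H77.integral_norm_stdGaussian_three]
  have hG : 0 < Real.Gamma ((d : ℝ) / 2) := Real.Gamma_pos_of_pos (by positivity)
  have hd' : (0 : ℝ) < d := by exact_mod_cast hd
  have hpi : (0 : ℝ) < π := Real.pi_pos
  have h2 : Real.sqrt 2 ^ 2 = 2 := Real.sq_sqrt (by norm_num)
  have h3 : Real.sqrt (2 / π) ^ 2 = 2 / π := Real.sq_sqrt (by positivity)
  rw [div_pow, div_pow, mul_pow, mul_pow, h2, h3]
  field_simp
  ring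

theorem gamma_five_halves : Real.Gamma (5 / 2) = 3 * Real.sqrt π / 4 := by
  have h := Real.Gamma_add_one (s := (1 / 2 : ℝ)) (by norm_num)
  rw [Real.Gamma_one_half_eq] at h
  have h2 := Real.Gamma_add_one (s := (1 / 2 + 1 : ℝ)) (by norm_num)
  rw [h] at h2
  rw [show (5 / 2 : ℝ) = 1 / 2 + 1 + 1 by norm_num, h2]
  ring

/-- The constant in dimension five is `16/15`. -/
theorem proj_const_five :
    3 * π / (4 * ((5 : ℕ) : ℝ))
      * (Real.Gamma ((((5 : ℕ) : ℝ) + 1) / 2) / Real.Gamma (((5 : ℕ) : ℝ) / 2)) ^ 2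
      = 16 / 15 := by
  have h3 : Real.Gamma 3 = 2 := by
    have h := Real.Gamma_nat_eq_factorial 2
    rw [show ((2 : ℕ) : ℝ) + 1 = 3 by norm_num] at h
    rw [h]
    norm_num [Nat.factorial]
  have hpi : (0 : ℝ) < π := Real.pi_pos
  have hs : Real.sqrt π ^ 2 = π := Real.sq_sqrt hpi.le
  have hsp : 0 < Real.sqrt π := Real.sqrt_pos.mpr hpi
  have hq : (2 / (3 * Real.sqrt π / 4)) ^ 2 = 64 / (9 * π) := by
    rw [div_pow, div_pow, mul_pow, hs]
    field_simp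
    ring
  rw [show (((5 : ℕ) : ℝ) + 1) / 2 = 3 by norm_num, show ((5 : ℕ) : ℝ) / 2 = 5 / 2 by norm_num,
    h3, gamma_five_halves, hq]
  field_simp
  ring

end Vale.Agent.Lib.P226.H85
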